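import Vale.Agent.P308.H655.Gad
import Vale.Agent.P308.H655.Exp

/-!
# The hafnian of the degree gadget
-/

set_option linter.all false

namespace Vale.Agent.P308.Deg.H757

open Vale.Agent.Lib.PolyTime Vale.Agent.P308.Alg Vale.Agent.P308.Hafnian Finset Function

theorem facN_eq (m : ℕ) : facN m = m.factorial := by
  induction m with
  | zero => rfl
  | succ m ih =>
    unfold facN at ih ⊢
    rw [List.range_succ, List.map_append, List.prod_append, ih]
    simp [Nat.factorial_succ, mul_comm]

theorem prod_range_list (n : ℕ) (f : ℕ → ℕ) :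
    ((List.range n).map f).prod = ∏ i : Fin n, f i := by
  rw [← Finset.prod_range]
  induction n with
  | zero => rfl
  | succ n ih => rw [List.range_succ, List.map_append, List.prod_append, ih, prod_range_succ]; simp

theorem sum_range_list (n : ℕ) (f : ℕ → ℕ) :
    ((List.range n).map f).sum = ∑ i : Fin n, f i := by
  rw [← Finset.sum_range]
  induction n with
  | zero => rfl
  | succ n ih => rw [List.range_succ, List.map_append, List.sum_append, ih, sum_range_succ]; simp

theorem facs_eq (n : ℕ) (t : List ℕ) : facs n t = ∏ i : Fin n, (n - t.getD i 0).factorial := by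
  unfold facs
  rw [prod_range_list]
  exact prod_congr rfl fun i _ => facN_eq _

/-- The number of the cores of a vertex. -/
theorem count_own (n : ℕ) (t : List ℕ) {i : ℕ} (hi : i < n) :
    (own n t).count i = n - t.getD i 0 := by
  unfold own
  rw [List.count_flatten, List.map_map]
  have h1 : (List.count i ∘ fun v => List.replicate (n - t.getD v 0) v) =
      fun v => if v = i then n - t.getD v 0 else 0 := by
    funext v
    simp only [comp_apply, List.count_replicate, beq_iff_eq]
  rw [h1, sum_range_list]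
  rw [sum_eq_single (⟨i, hi⟩ : Fin n)]
  · simp
  · intro b _ hb
    rw [if_neg fun h => hb (Fin.ext h)]
  · intro h
    exact absurd (mem_univ _) h

theorem own_lt (n : ℕ) (t : List ℕ) : ∀ a ∈ own n t, a < n := by
  intro a ha
  unfold own at ha
  rw [List.mem_flatten] at ha
  obtain ⟨l, hl, ha⟩ := ha
  rw [List.mem_map] at hl
  obtain ⟨v, hv, rfl⟩ := hl
  rw [List.mem_range] at hv
  rw [List.eq_of_mem_replicate ha]
  exact hv

/-- Counting by positions. -/
theorem card_getD (l : List ℕ) (i : ℕ) :
    ((range l.length).filter fun j => l.getD j 0 = i).card = l.count i := by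
  induction l with
  | nil => simp
  | cons a l ih =>
    rw [List.length_cons, range_eq_Ico, ← insert_Ico_add_one_left_eq_Ico (by omega : 0 < l.length + 1),
      filter_insert]
    have h1 : ((Ico (0 + 1) (l.length + 1)).filter fun j => (a :: l).getD j 0 = i).card =
        l.count i := by
      rw [← ih]
      symm
      refine card_bij (fun j _ => j + 1) ?_ ?_ ?_
      · intro j hj
        rw [mem_filter, mem_range] at hj
        rw [mem_filter, mem_Ico]
        exact ⟨⟨by omega, by omega⟩, by simpa using hj.2⟩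
      · intro j _ j' _ h
        exact Nat.succ_injective h
      · intro j hj
        rw [mem_filter, mem_Ico] at hj
        obtain ⟨j, rfl⟩ := Nat.exists_eq_add_of_le' (show 1 ≤ j by omega)
        refine ⟨j, ?_, rfl⟩
        rw [mem_filter, mem_range]
        exact ⟨by omega, by simpa using hj.2⟩
    have h2 : ¬ (0 ∈ (Ico (0 + 1) (l.length + 1)).filter fun j => (a :: l).getD j 0 = i) := by
      simp
    rw [List.count_cons]
    split_ifs with h3 h4 h4
    · rw [card_insert_of_notMem h2, h1]
    · exact absurd (by simpa using h3) h4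
    · exact absurd (by simpa using h4) h3
    · rw [h1, add_zero]

theorem gadF_symm (n : ℕ) {B : ℕ → ℕ → ℕ} (hB : ∀ x y, B x y = B y x) (o : List ℕ) (x y : ℕ) :
    gadF n B o x y = gadF n B o y x := by
  unfold gadF
  by_cases hx : x < n * n <;> by_cases hy : y < n * n
  · simp only [hx, hy, and_self, if_true]
    by_cases h : x / n = y % n ∧ x % n = y / n ∧ x / n ≠ x % n
    · obtain ⟨h1, h2, h3⟩ := h
      rw [if_pos ⟨h1, h2, h3⟩, if_pos ⟨h2.symm, h1.symm, by rw [← h1, ← h2]; exact h3.symm⟩, hB,
        h1, h2]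
    · rw [if_neg h, if_neg]
      rintro ⟨h1, h2, h3⟩
      exact h ⟨h2.symm, h1.symm, by rw [← h1, ← h2]; exact h3.symm⟩
  · have hy' : n * n ≤ y := by omega
    simp only [hx, hy, hy', and_false, false_and, and_self, if_true, if_false,
      show ¬ (n * n ≤ x) by omega]
  · have hx' : n * n ≤ x := by omega
    simp only [hx, hy, hx', and_false, false_and, and_self, if_true, if_false,
      show ¬ (n * n ≤ y) by omega]
  · simp only [hx, hy, and_false, false_and, if_false]

section Main

variable (n : ℕ) (o : List ℕ)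

theorem pos_of (x : Fin (n * n + o.length)) (ho : ∀ a ∈ o, a < n) : 0 < n := by
  rcases Nat.eq_zero_or_pos n with h | h
  · subst h
    rcases o with _ | ⟨a, o⟩
    · exact absurd x.2 (by simp)
    · exact absurd (ho a (by simp)) (by omega)
  · exact h

/-- the port of an ordered pair -/
def pt (u v : Fin n) : Fin (n * n + o.length) :=
  ⟨u * n + v, by
    have h1 := u.2
    have h2 := v.2
    have : (u : ℕ) * n + v < n * n := by
      calc (u : ℕ) * n + v < u * n + n := by omega
        _ = (u + 1) * n := by ring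
        _ ≤ n * n := Nat.mul_le_mul_right _ h1
    omega⟩

theorem pt_lt (u v : Fin n) : (pt n o u v : ℕ) < n * n := by
  have h1 := u.2
  have h2 := v.2
  show (u : ℕ) * n + v < n * n
  calc (u : ℕ) * n + v < u * n + n := by omega
    _ = (u + 1) * n := by ring
    _ ≤ n * n := Nat.mul_le_mul_right _ h1

theorem pt_div (u v : Fin n) : (pt n o u v : ℕ) / n = u := by
  have hn : 0 < n := by have := u.2; omega
  show ((u : ℕ) * n + v) / n = u
  rw [add_comm, Nat.add_mul_div_right _ _ hn, Nat.div_eq_of_lt v.2, zero_add]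

theorem pt_mod (u v : Fin n) : (pt n o u v : ℕ) % n = v := by
  show ((u : ℕ) * n + v) % n = v
  rw [add_comm, Nat.add_mul_mod_self_right, Nat.mod_eq_of_lt v.2]

theorem pt_inj {u v u' v' : Fin n} (h : pt n o u v = pt n o u' v') : u = u' ∧ v = v' := by
  have h1 := congrArg (fun x : Fin (n * n + o.length) => (x : ℕ) / n) h
  have h2 := congrArg (fun x : Fin (n * n + o.length) => (x : ℕ) % n) h
  simp only [pt_div, pt_mod] at h1 h2
  exact ⟨Fin.ext h1, Fin.ext h2⟩

theorem exists_pt (x : Fin (n * n + o.length)) (hx : (x : ℕ) < n * n) :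
    ∃ u v, pt n o u v = x := by
  have hn : 0 < n := by
    rcases Nat.eq_zero_or_pos n with h | h
    · subst h; omega
    · exact h
  refine ⟨⟨(x : ℕ) / n, Nat.div_lt_of_lt_mul hx⟩, ⟨(x : ℕ) % n, Nat.mod_lt _ hn⟩, Fin.ext ?_⟩
  show (x : ℕ) / n * n + (x : ℕ) % n = x
  exact Nat.div_add_mod' _ _

/-- base of a vertex -/
def bas (x : ℕ) : ℕ := if x < n * n then x / n else o.getD (x - n * n) 0

theorem bas_lt (ho : ∀ a ∈ o, a < n) (x : Fin (n * n + o.length)) : bas n o x < n := by
  unfold bas
  split_ifs with h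
  · exact Nat.div_lt_of_lt_mul h
  · have h1 : (x : ℕ) - n * n < o.length := by have := x.2; omega
    rw [List.getD_eq_getElem _ _ h1]
    exact ho _ (List.getElem_mem _)

/-- owner -/
def ow (ho : ∀ a ∈ o, a < n) (x : Fin (n * n + o.length)) : Fin n := ⟨bas n o x, bas_lt n o ho x⟩

theorem ow_pt (ho : ∀ a ∈ o, a < n) (u v : Fin n) : ow n o ho (pt n o u v) = u := by
  apply Fin.ext
  show bas n o (pt n o u v) = u
  rw [bas, if_pos (pt_lt n o u v), pt_div]

/-- the ports -/
def PP : Finset (Fin (n * n + o.length)) := univ.filter fun x => (x : ℕ) < n * n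

/-- the cores -/
def CC : Finset (Fin (n * n + o.length)) := univ.filter fun x => n * n ≤ (x : ℕ)

theorem mem_PP {x : Fin (n * n + o.length)} : x ∈ PP n o ↔ (x : ℕ) < n * n := by simp [PP]

theorem mem_CC {x : Fin (n * n + o.length)} : x ∈ CC n o ↔ n * n ≤ (x : ℕ) := by simp [CC]

theorem pt_mem (u v : Fin n) : pt n o u v ∈ PP n o := (mem_PP n o).2 (pt_lt n o u v)

theorem card_fib_CC (ho : ∀ a ∈ o, a < n) (i : Fin n) :
    (fib (ow n o ho) (CC n o) i).card = o.count (i : ℕ) := by
  rw [← card_getD]
  refine card_bij (fun x _ => (x : ℕ) - n * n) ?_ ?_ ?_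
  · intro x hx
    rw [fib, mem_filter, mem_CC] at hx
    rw [mem_filter, mem_range]
    refine ⟨by have := x.2; omega, ?_⟩
    have h := congrArg Fin.val hx.2
    change bas n o x = i at h
    rwa [bas, if_neg (by omega)] at h
  · intro x hx y hy h
    rw [fib, mem_filter, mem_CC] at hx hy
    apply Fin.ext
    omega
  · intro j hj
    rw [mem_filter, mem_range] at hj
    refine ⟨⟨n * n + j, by omega⟩, ?_, ?_⟩
    · rw [fib, mem_filter, mem_CC]
      refine ⟨Nat.le_add_right _ _, Fin.ext ?_⟩
      show bas n o (n * n + j) = i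
      rw [bas, if_neg (by omega), Nat.add_sub_cancel_left]
      exact hj.2
    · show n * n + j - n * n = j
      omega

theorem card_fib_PP (ho : ∀ a ∈ o, a < n) {T : Finset (Fin (n * n + o.length))}
    (hT : T ⊆ PP n o) (i : Fin n) :
    (fib (ow n o ho) T i).card = (univ.filter fun v : Fin n => pt n o i v ∈ T).card := by
  symm
  refine card_bij (fun v _ => pt n o i v) ?_ ?_ ?_
  · intro v hv
    rw [mem_filter] at hv
    rw [fib, mem_filter]
    exact ⟨hv.2, ow_pt n o ho i v⟩
  · intro v _ v' _ h
    exact (pt_inj n o h).2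
  · intro x hx
    rw [fib, mem_filter] at hx
    obtain ⟨u, v, rfl⟩ := exists_pt n o x ((mem_PP n o).1 (hT hx.1))
    rw [ow_pt] at hx
    obtain ⟨h1, rfl⟩ := hx
    exact ⟨v, by rw [mem_filter]; exact ⟨mem_univ _, h1⟩, rfl⟩

open scoped Classical in
theorem degree_eq (G : SimpleGraph (Fin n)) (u : Fin n) :
    G.degree u = (univ.filter fun v => G.Adj u v).card := by
  rw [← SimpleGraph.card_neighborFinset_eq_degree]
  congr 1
  ext v
  simp

open scoped Classical in
/-- the set of the removed ports -/
noncomputable def ofG (G : SimpleGraph (Fin n)) : Finset (Fin (n * n + o.length)) :=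
  univ.filter fun x => ∃ u v, pt n o u v = x ∧ ¬ G.Adj u v

theorem pt_mem_ofG (G : SimpleGraph (Fin n)) (u v : Fin n) :
    pt n o u v ∈ ofG n o G ↔ ¬ G.Adj u v := by
  classical
  unfold ofG
  rw [mem_filter]
  constructor
  · rintro ⟨-, u', v', h, h'⟩
    obtain ⟨rfl, rfl⟩ := pt_inj n o h
    exact h'
  · exact fun h => ⟨mem_univ _, u, v, rfl, h⟩

theorem ofG_sub (G : SimpleGraph (Fin n)) : ofG n o G ⊆ PP n o := by
  classical
  intro x hx
  unfold ofG at hx
  rw [mem_filter] at hx
  obtain ⟨-, u, v, rfl, -⟩ := hx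
  exact pt_mem n o u v

/-- the graph of a set of removed ports -/
def toG (T : Finset (Fin (n * n + o.length))) : SimpleGraph (Fin n) :=
  SimpleGraph.fromRel fun u v => pt n o u v ∉ T

/-- the condition of `H_ports` -/
def Good (T : Finset (Fin (n * n + o.length))) : Prop :=
  ∀ x ∈ PP n o \ T, (x : ℕ) / n ≠ (x : ℕ) % n ∧
    ∃ y ∈ PP n o \ T, (y : ℕ) / n = (x : ℕ) % n ∧ (y : ℕ) % n = (x : ℕ) / n

theorem good_iff (T : Finset (Fin (n * n + o.length))) :
    Good n o T ↔ ∀ u v, pt n o u v ∉ T → u ≠ v ∧ pt n o v u ∉ T := by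
  constructor
  · intro h u v huv
    obtain ⟨h1, y, hy, h2, h3⟩ := h (pt n o u v) (mem_sdiff.2 ⟨pt_mem n o u v, huv⟩)
    rw [mem_sdiff, mem_PP] at hy
    obtain ⟨u', v', rfl⟩ := exists_pt n o y hy.1
    rw [pt_div, pt_mod] at h1 h2 h3
    have e1 : u' = v := Fin.ext h2
    have e2 : v' = u := Fin.ext h3
    subst e1 e2
    exact ⟨fun h => h1 (congrArg Fin.val h), hy.2⟩
  · intro h x hx
    rw [mem_sdiff, mem_PP] at hx
    obtain ⟨u, v, rfl⟩ := exists_pt n o x hx.1
    obtain ⟨h1, h2⟩ := h u v hx.2
    refine ⟨?_, pt n o v u, mem_sdiff.2 ⟨pt_mem n o v u, h2⟩, ?_, ?_⟩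
    · rw [pt_div, pt_mod]
      exact fun h => h1 (Fin.ext h)
    · rw [pt_div, pt_mod]
    · rw [pt_mod, pt_div]

theorem toG_adj {T : Finset (Fin (n * n + o.length))} (hT : Good n o T) (u v : Fin n) :
    (toG n o T).Adj u v ↔ pt n o u v ∉ T := by
  rw [good_iff] at hT
  unfold toG
  rw [SimpleGraph.fromRel_adj]
  constructor
  · rintro ⟨h1, h2 | h2⟩
    · exact h2
    · exact (hT v u h2).2
  · exact fun h => ⟨(hT u v h).1, Or.inl h⟩

open scoped Classical in
/-- **The hafnian of the gadget.** -/
theorem H_gad {B : ℕ → ℕ → ℕ} (hB : ∀ x y, B x y = B y x) (ho : ∀ a ∈ o, a < n) :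
    H (V := Fin (n * n + o.length)) (fun a b => gadF n B o a b) univ =
      (∏ i : Fin n, (o.count (i : ℕ)).factorial) *
        ∑ G : SimpleGraph (Fin n) with ∀ v : Fin n, G.degree v + o.count (v : ℕ) = n,
          ∏ p : Fin n × Fin n with p.1 < p.2 ∧ G.Adj p.1 p.2, B p.1 p.2 := by
  have huniv : (univ : Finset (Fin (n * n + o.length))) = PP n o ∪ CC n o := by
    ext x
    rw [mem_union, mem_PP, mem_CC]
    simp only [mem_univ, true_iff]
    omega
  have hdis : Disjoint (PP n o) (CC n o) := by
    rw [disjoint_left]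
    intro x hx hx'
    rw [mem_PP] at hx
    rw [mem_CC] at hx'
    omega
  have h1 := H_cores (V := Fin (n * n + o.length)) (R := ℕ) (fun a b => gadF n B o a b)
    (fun a b => gadF_symm n hB o a b) (ow n o ho) (CC n o) (PP n o) hdis ?_ ?_
  · rw [huniv, h1]
    have h2 : fac (ow n o ho) (CC n o) = ∏ i : Fin n, (o.count (i : ℕ)).factorial := by
      unfold fac
      exact prod_congr rfl fun i _ => by rw [card_fib_CC]
    rw [h2, Nat.cast_id]
    congr 1
    have h3 : ∀ T ∈ sel (ow n o ho) (PP n o) (CC n o),
        H (V := Fin (n * n + o.length)) (fun a b => gadF n B o a b) (PP n o \ T) =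
          if Good n o T then ∏ x ∈ (PP n o \ T).filter
              (fun x : Fin (n * n + o.length) => (x : ℕ) / n < (x : ℕ) % n),
            B ((x : ℕ) / n) ((x : ℕ) % n) else 0 := by
      intro T hT
      have h4 := H_ports (V := Fin (n * n + o.length)) (R := ℕ) (fun x => (x : ℕ) / n)
        (fun x => (x : ℕ) % n) B hB (fun a b => gadF n B o a b)
        (fun a b => gadF_symm n hB o a b) _ (PP n o \ T) rfl ?_ ?_
      · rw [h4]
        split_ifs with a b b
        · rfl
        · exact absurd a b
        · exact absurd b a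
        · rfl
      · intro x _ y _ e1 e2
        apply Fin.ext
        rw [← Nat.div_add_mod (x : ℕ) n, ← Nat.div_add_mod (y : ℕ) n, e1, e2]
      · intro x hx y hy _
        rw [mem_sdiff, mem_PP] at hx hy
        show gadF n B o x y = _
        rw [gadF, if_pos ⟨hx.1, hy.1⟩]
    rw [sum_congr rfl h3, ← sum_filter]
    refine sum_bij' (fun T _ => toG n o T) (fun G _ => ofG n o G) ?_ ?_ ?_ ?_ ?_
    · intro T hT
      rw [mem_filter, mem_sel] at hT
      obtain ⟨⟨hT1, hT2⟩, hT3⟩ := hT
      rw [mem_filter]
      refine ⟨mem_univ _, fun v => ?_⟩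
      have h4 := hT2 v
      rw [card_fib_CC, card_fib_PP n o ho hT1] at h4
      rw [degree_eq, ← h4]
      have h5 := card_filter_add_card_filter_not (s := (univ : Finset (Fin n)))
        (fun w => pt n o v w ∈ T)
      rw [card_univ, Fintype.card_fin] at h5
      have h6 : (univ.filter fun w => (toG n o T).Adj v w) =
          univ.filter fun w => ¬ pt n o v w ∈ T := by
        ext w
        rw [mem_filter, mem_filter, toG_adj n o hT3]
      rw [h6]
      omega
    · intro G hG
      rw [mem_filter] at hG
      rw [mem_filter, mem_sel]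
      refine ⟨⟨ofG_sub n o G, fun i => ?_⟩, ?_⟩
      · rw [card_fib_CC, card_fib_PP n o ho (ofG_sub n o G)]
        have h4 := hG.2 i
        rw [degree_eq] at h4
        have h5 := card_filter_add_card_filter_not (s := (univ : Finset (Fin n)))
          (fun w => G.Adj i w)
        rw [card_univ, Fintype.card_fin] at h5
        have h6 : (univ.filter fun w => pt n o i w ∈ ofG n o G) =
            univ.filter fun w => ¬ G.Adj i w := by
          ext w
          rw [mem_filter, mem_filter, pt_mem_ofG]
        rw [h6]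
        omega
      · rw [good_iff]
        intro u v h
        rw [pt_mem_ofG, not_not] at h
        rw [pt_mem_ofG, not_not]
        exact ⟨h.ne, h.symm⟩
    · intro T hT
      rw [mem_filter, mem_sel] at hT
      ext x
      by_cases hx : (x : ℕ) < n * n
      · obtain ⟨u, v, rfl⟩ := exists_pt n o x hx
        rw [pt_mem_ofG, toG_adj n o hT.2, not_not]
      · constructor
        · intro h
          exact absurd ((mem_PP n o).1 (ofG_sub n o _ h)) hx
        · intro h
          exact absurd ((mem_PP n o).1 (hT.1.1 h)) hx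
    · intro G hG
      have h4 : Good n o (ofG n o G) := by
        rw [good_iff]
        intro u v h
        rw [pt_mem_ofG, not_not] at h
        rw [pt_mem_ofG, not_not]
        exact ⟨h.ne, h.symm⟩
      ext u v
      rw [toG_adj n o h4, pt_mem_ofG, not_not]
    · intro T hT
      rw [mem_filter, mem_sel] at hT
      have h4 : (PP n o \ T).filter
          (fun x : Fin (n * n + o.length) => (x : ℕ) / n < (x : ℕ) % n) =
          (univ.filter fun p : Fin n × Fin n => p.1 < p.2 ∧ (toG n o T).Adj p.1 p.2).image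
            fun p => pt n o p.1 p.2 := by
        ext x
        rw [mem_filter, mem_sdiff, mem_PP, mem_image]
        constructor
        · rintro ⟨⟨h4, h5⟩, h6⟩
          obtain ⟨u, v, rfl⟩ := exists_pt n o x h4
          rw [pt_div, pt_mod] at h6
          exact ⟨(u, v), mem_filter.2 ⟨mem_univ _, Fin.lt_def.2 h6, (toG_adj n o hT.2 u v).2 h5⟩,
            rfl⟩
        · rintro ⟨p, hp, rfl⟩
          rw [mem_filter] at hp
          rw [pt_div, pt_mod]
          exact ⟨⟨pt_lt n o _ _, (toG_adj n o hT.2 _ _).1 hp.2.2⟩, Fin.lt_def.1 hp.2.1⟩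
      rw [h4, prod_image]
      · refine prod_congr rfl fun p _ => ?_
        rw [pt_div, pt_mod]
      · intro p _ q _ h
        obtain ⟨e1, e2⟩ := pt_inj n o h
        exact Prod.ext e1 e2
  · intro j hj p hp
    rw [mem_CC] at hj
    rw [mem_PP] at hp
    show gadF n B o j p = _
    rw [gadF, if_neg (by omega), if_neg (by omega), if_pos ⟨hj, hp⟩]
    have e1 : ow n o ho j = ow n o ho p ↔ o.getD ((j : ℕ) - n * n) 0 = (p : ℕ) / n := by
      rw [Fin.ext_iff]
      show bas n o j = bas n o p ↔ _
      rw [bas, bas, if_neg (by omega), if_pos hp]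
    rw [if_congr e1 rfl rfl]
  · intro j hj j' hj' _
    rw [mem_CC] at hj hj'
    show gadF n B o j j' = 0
    rw [gadF, if_neg (by omega), if_neg (by omega), if_neg (by omega)]

end Main

end Vale.Agent.P308.Deg.H757

namespace Vale.Agent.P308.Deg

open Vale.Agent.Lib.PolyTime Vale.Agent.P308.Alg Vale.Agent.P308.Hafnian Finset Function H757

open scoped Classical in
theorem c1 : C1 := by
  intro Q t hQ
  have hs : ∀ x y, ent Q x y = ent Q y x := hQ
  refine ⟨sym_mk (gadF_symm _ hs _), ?_⟩
  have e0 : HQ (gad Q t) = H (V := Fin (Q.length * Q.length + (own Q.length t).length))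
      (fun a b => gadF Q.length (ent Q) (own Q.length t) a b) univ := by
    unfold HQ gad
    rw [length_mk, HN_congr (fun x hx y hy => ent_mk _ hx hy)]
    rfl
  rw [e0, H_gad _ _ hs (own_lt _ _), facs_eq]
  congr 1
  · exact prod_congr rfl fun i _ => by rw [count_own _ _ i.2]
  · unfold degSum
    refine sum_congr ?_ fun G _ => rfl
    ext G
    rw [mem_filter, mem_filter]
    refine and_congr_right fun _ => forall_congr' fun v => ?_
    rw [count_own _ _ v.2]
    have h1 : G.degree v < Q.length := by
      have := G.degree_lt_card_verts v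
      rwa [Fintype.card_fin] at this
    show _ ↔ G.degree v = t.getD v 0
    omega

end Vale.Agent.P308.Deg
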