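import Vale.Agent.P308.H757.C1

/-!
# The degree gadget for rational matrices and for the complete graph
-/

set_option linter.all false

namespace Vale.Agent.P308.Deg.H757

open Vale.Agent.Lib.PolyTime Vale.Agent.P308.Alg Vale.Agent.P308.Hafnian Finset Function

theorem c1' {n : ℕ} {Q : List (List ℕ)} (hn : Q.length = n) (t : List ℕ) (hQ : Sym Q) :
    HQ (gad Q t) = facs n t *
      degSum (Matrix.of fun i j : Fin n => ent Q i j) (fun v => t.getD v 0) := by
  subst hn
  exact (c1 Q t hQ).2

theorem getD_ofFn {n : ℕ} (t : Fin n → ℕ) (v : Fin n) : (List.ofFn t).getD v 0 = t v := by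
  simp [List.getD_eq_getElem?_getD, List.getElem?_ofFn]

open scoped Classical in
/-- Handshake. -/
theorem handshake {n : ℕ} (G : SimpleGraph (Fin n)) :
    ∑ v, G.degree v = 2 * (univ.filter fun p : Fin n × Fin n => p.1 < p.2 ∧ G.Adj p.1 p.2).card := by
  have h1 : ∑ v, G.degree v = (univ.filter fun p : Fin n × Fin n => G.Adj p.1 p.2).card := by
    rw [card_filter, ← univ_product_univ, sum_product]
    refine sum_congr rfl fun v _ => ?_
    rw [degree_eq, card_filter]
  have h2 : (univ.filter fun p : Fin n × Fin n => G.Adj p.1 p.2) =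
      (univ.filter fun p : Fin n × Fin n => p.1 < p.2 ∧ G.Adj p.1 p.2) ∪
        (univ.filter fun p : Fin n × Fin n => p.1 < p.2 ∧ G.Adj p.1 p.2).image Prod.swap := by
    ext p
    rw [mem_union, mem_filter, mem_filter, mem_image]
    constructor
    · rintro ⟨-, h⟩
      rcases lt_or_gt_of_ne h.ne with h1 | h1
      · exact Or.inl ⟨mem_univ _, h1, h⟩
      · exact Or.inr ⟨p.swap, mem_filter.2 ⟨mem_univ _, h1, h.symm⟩, Prod.swap_swap p⟩
    · rintro (⟨-, -, h⟩ | ⟨q, hq, rfl⟩)
      · exact ⟨mem_univ _, h⟩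
      · rw [mem_filter] at hq
        exact ⟨mem_univ _, hq.2.2.symm⟩
  rw [h1, h2, card_union_of_disjoint, card_image_of_injective _ Prod.swap_injective, two_mul]
  rw [disjoint_left]
  intro p hp hp'
  rw [mem_filter] at hp
  rw [mem_image] at hp'
  obtain ⟨q, hq, rfl⟩ := hp'
  rw [mem_filter] at hq
  exact lt_asymm hp.2.1 hq.2.1

open scoped Classical in
theorem edg_eq {n : ℕ} (t : Fin n → ℕ) (G : SimpleGraph (Fin n)) (hG : ∀ v, G.degree v = t v) :
    (univ.filter fun p : Fin n × Fin n => p.1 < p.2 ∧ G.Adj p.1 p.2).card =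
      edg n (List.ofFn t) := by
  unfold edg
  rw [sum_range_list]
  have h1 : ∀ v : Fin n, Min.min ((List.ofFn t).getD v 0) n = G.degree v := by
    intro v
    have h2 : G.degree v < n := by
      have := G.degree_lt_card_verts v
      rwa [Fintype.card_fin] at this
    rw [getD_ofFn, ← hG v]
    exact min_eq_left h2.le
  rw [sum_congr rfl fun v _ => h1 v, handshake]
  omega

end Vale.Agent.P308.Deg.H757

namespace Vale.Agent.P308.Deg

open Vale.Agent.Lib.PolyTime Vale.Agent.P308.Alg Vale.Agent.P308.Hafnian Finset Function H757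

theorem c3a (n : ℕ) (A : Matrix (Fin n) (Fin n) ℚ≥0) (hA : A.IsSymm) (t : Fin n → ℕ) :
    ((HQ (gad (intM (matL A)) (List.ofFn t)) : ℕ) : ℚ≥0) =
      ((dn (matL A) ^ edg n (List.ofFn t) * facs n (List.ofFn t) : ℕ) : ℚ≥0) * degSum A t := by
  classical
  rw [c1' (length_intM A) _ (sym_intM A hA)]
  unfold degSum
  push_cast
  rw [mul_comm ((dn (matL A) : ℚ≥0) ^ edg n (List.ofFn t)), mul_assoc]
  congr 1
  rw [mul_sum]
  refine sum_congr ?_ fun G hG => ?_
  · ext G
    rw [mem_filter, mem_filter]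
    refine and_congr_right fun _ => forall_congr' fun v => ?_
    rw [getD_ofFn]
  · rw [mem_filter] at hG
    have h1 : ∀ p : Fin n × Fin n, ((Matrix.of (fun i j : Fin n => ent (intM (matL A)) i j)
        p.1 p.2 : ℕ) : ℚ≥0) = dn (matL A) * A p.1 p.2 := fun p => ent_intM_cast A p.1 p.2
    rw [prod_congr rfl fun p _ => h1 p, prod_mul_distrib, prod_const]
    congr 2
    exact edg_eq t G fun v => hG.2 v

theorem c4 : C4 := by
  classical
  intro n t
  have hl : (ones n).length = n := length_mk _ _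
  have hs : Sym (ones n) := sym_mk fun _ _ => rfl
  rw [c1' hl _ hs]
  congr 1
  unfold degSum numGraphs
  rw [card_eq_sum_ones]
  refine sum_congr ?_ fun G _ => ?_
  · ext G
    rw [mem_filter, mem_filter]
    refine and_congr_right fun _ => forall_congr' fun v => ?_
    show G.degree v = (List.ofFn t).getD v 0 ↔ _
    rw [getD_ofFn]
  · refine prod_eq_one fun p _ => ?_
    show ent (ones n) p.1 p.2 = 1
    exact ent_mk _ p.1.2 p.2.2

end Vale.Agent.P308.Deg
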